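import Vale.Agent.P085.Assembly
import Vale.Agent.P085.Encode
import Vale.Agent.P085.Target.Main
import Vale.Agent.P085.Carrier.Main
import Vale.Agent.P085.Step.Main
import Vale.Agent.P085.Corner.Single
import Vale.Agent.P085.Bridge.Main

/-! P085: every II₁ factor on a separable Hilbert space is generated by one element. -/

namespace Vale.Agent.Results.P085.SingleGenerator

theorem result : VP085.Lit.Target :=
  VP085.answer_of VP085.encodeSpec VP085.targetSpec VP085.carrierSpec VP085.stepSpec
    VP085.cornerSpec VP085.Bridge.bridgeSpec

end Vale.Agent.Results.P085.SingleGenerator
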